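import Vale.Agent.P097.Defs

/-!
An invariant curve calibrates the action: its orbits maximise.
-/

namespace Vale.Agent.P097

open Real Set Filter Topology

noncomputable section

/-- The signed distance from the origin of the line with normal angle `φ` through `bdry h ψ`. -/
def lineP (h : ℝ → ℝ) (φ ψ : ℝ) : ℝ := h ψ * cos (φ - ψ) + deriv h ψ * sin (φ - ψ)

/-- The generating function. -/
def act (h : ℝ → ℝ) (x y : ℝ) : ℝ := 2 * h ((x + y) / 2) * sin ((y - x) / 2)

variable {h : ℝ → ℝ} (hh : IsTable h)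

include hh

lemma hasDerivAt_h (ψ : ℝ) : HasDerivAt h (deriv h ψ) ψ :=
  ((hh.smooth.differentiable (by norm_num)) ψ).hasDerivAt

lemma hasDerivAt_h' (ψ : ℝ) : HasDerivAt (deriv h) (deriv (deriv h) ψ) ψ :=
  (((contDiff_succ_iff_deriv (n := 1)).1 hh.smooth).2.2.differentiable (by norm_num) ψ).hasDerivAt

lemma cont_h' : Continuous (deriv h) :=
  continuous_iff_continuousAt.2 fun ψ => (hasDerivAt_h' hh ψ).continuousAt

lemma cont_lineP : Continuous fun q : ℝ × ℝ => lineP h q.1 q.2 := by
  have := hh.smooth.continuous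
  have := cont_h' hh
  unfold lineP; fun_prop

lemma hasDerivAt_lineP (φ ψ : ℝ) :
    HasDerivAt (fun t => lineP h φ t) ((h ψ + deriv (deriv h) ψ) * sin (φ - ψ)) ψ := by
  have e : HasDerivAt (fun t => φ - t) (-1) ψ := by simpa using (hasDerivAt_id ψ).const_sub φ
  refine (((hasDerivAt_h hh ψ).mul e.cos).add ((hasDerivAt_h' hh ψ).mul e.sin)).congr_deriv ?_
  ring

lemma lineP_strictMonoOn (φ : ℝ) : StrictMonoOn (fun t => lineP h φ t) (Icc (φ - π) φ) := by
  refine strictMonoOn_of_deriv_pos (convex_Icc _ _)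
    (fun t _ => (hasDerivAt_lineP hh φ t).continuousAt.continuousWithinAt) fun t ht => ?_
  rw [interior_Icc] at ht
  rw [(hasDerivAt_lineP hh φ t).deriv]
  exact mul_pos (hh.radius_pos t) (sin_pos_of_pos_of_lt_pi (by linarith [ht.2]) (by linarith [ht.1]))

lemma lineP_strictAntiOn (φ : ℝ) : StrictAntiOn (fun t => lineP h φ t) (Icc φ (φ + π)) := by
  refine strictAntiOn_of_deriv_neg (convex_Icc _ _)
    (fun t _ => (hasDerivAt_lineP hh φ t).continuousAt.continuousWithinAt) fun t ht => ?_
  rw [interior_Icc] at ht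
  rw [(hasDerivAt_lineP hh φ t).deriv]
  exact mul_neg_of_pos_of_neg (hh.radius_pos t)
    (sin_neg_of_neg_of_neg_pi_lt (by linarith [ht.1]) (by linarith [ht.2]))

lemma deriv_periodic (ψ : ℝ) : deriv h (ψ + 2 * π) = deriv h ψ := by
  have h1 : HasDerivAt (fun t => h (t + 2 * π)) (deriv h (ψ + 2 * π)) ψ :=
    (hasDerivAt_h hh (ψ + 2 * π)).comp_add_const ψ (2 * π)
  rw [show (fun t => h (t + 2 * π)) = h from funext hh.periodic] at h1
  exact h1.deriv.symm

lemma lineP_add (φ ψ : ℝ) : lineP h (φ + 2 * π) (ψ + 2 * π) = lineP h φ ψ := by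
  simp only [lineP, hh.periodic ψ, deriv_periodic hh, add_sub_add_right_eq_sub]

omit hh in
lemma lineP_of_step {x y : ℝ × ℝ} (hs : Step h x y) :
    y.1 - y.2 = x.1 + x.2 ∧ lineP h (x.1 + x.2) x.1 = lineP h (x.1 + x.2) y.1 := by
  obtain ⟨-, -, e, l, -, hl⟩ := hs
  refine ⟨e, ?_⟩
  have h1 := congrArg Prod.fst hl
  have h2 := congrArg Prod.snd hl
  simp only [bdry, Prod.fst_sub, Prod.snd_sub, Prod.smul_fst, Prod.smul_snd, smul_eq_mul] at h1 h2
  simp only [lineP, cos_sub, sin_sub]
  linear_combination -(cos (x.1 + x.2)) * h1 - sin (x.1 + x.2) * h2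

/-- What an invariant curve gives: monotone maps to the normal angles of its lines, and a common
support function of these lines. -/
theorem curve_lines {d : ℝ → ℝ} (hd : IsInvariantCurve h d) :
    StrictMono (fun ψ => ψ + d ψ) ∧ Function.Surjective (fun ψ => ψ + d ψ) ∧
      StrictMono (fun ψ => ψ - d ψ) ∧ Function.Surjective (fun ψ => ψ - d ψ) ∧
      ∃ g : ℝ → ℝ, Continuous g ∧ (∀ φ, g (φ + 2 * π) = g φ) ∧
        (∀ ψ, g (ψ + d ψ) = lineP h (ψ + d ψ) ψ) ∧ (∀ ψ, g (ψ - d ψ) = lineP h (ψ - d ψ) ψ) := by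
  choose s hs using hd.forward
  set a : ℝ → ℝ := fun ψ => ψ + d ψ with ha
  set b : ℝ → ℝ := fun ψ => ψ - d ψ with hb
  have hac : Continuous a := continuous_id.add hd.cont
  have hbc : Continuous b := continuous_id.sub hd.cont
  have hbs : ∀ ψ, b (s ψ) = a ψ := fun ψ => (lineP_of_step (hs ψ)).1
  have hPs : ∀ ψ, lineP h (a ψ) ψ = lineP h (a ψ) (s ψ) := fun ψ => (lineP_of_step (hs ψ)).2
  have huniq : ∀ ψ y, b y = a ψ → lineP h (a ψ) ψ = lineP h (a ψ) y → s ψ = y := by
    intro ψ y hy hP
    have m1 := hd.mem (s ψ)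
    have m2 := hd.mem y
    have e1 := hbs ψ
    simp only [hb] at e1 hy
    refine (lineP_strictAntiOn hh (a ψ)).injOn ⟨by linarith [m1.1], by linarith [m1.2]⟩
      ⟨by linarith [m2.1], by linarith [m2.2]⟩ ?_
    exact (hPs ψ).symm.trans hP
  have hsper : ∀ ψ, s (ψ + 2 * π) = s ψ + 2 * π := by
    intro ψ
    refine huniq _ _ ?_ ?_
    · have := hbs ψ
      simp only [ha, hb, hd.periodic ψ, hd.periodic (s ψ)] at this ⊢
      linarith
    · rw [show a (ψ + 2 * π) = a ψ + 2 * π by simp only [ha, hd.periodic ψ]; ring,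
        lineP_add hh, lineP_add hh, hPs]
  have hsc : Continuous s := by
    refine continuous_iff_seqContinuous.2 fun x ψ hx => ?_
    refine tendsto_of_subseq_tendsto fun ns hns => ?_
    have hbd : ∀ᶠ n in atTop, s (x (ns n)) ∈ Icc (a ψ - 1) (a ψ + π + 1) := by
      filter_upwards [((hac.tendsto ψ).comp (hx.comp hns)).eventually
        (Icc_mem_nhds (show a ψ - 1 < a ψ by linarith) (show a ψ < a ψ + 1 by linarith))] with n hn
      have m := hd.mem (s (x (ns n)))
      have e := hbs (x (ns n))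
      simp only [Function.comp_apply] at hn
      simp only [hb] at e
      constructor <;> linarith [hn.1, hn.2, m.1, m.2]
    obtain ⟨y, -, ms, hms, hy⟩ :=
      (Metric.isBounded_Icc (a := a ψ - 1) (b := a ψ + π + 1)).isCompact_closure
        |>.tendsto_subseq' (hbd.mono fun n hn => subset_closure hn).frequently
    refine ⟨ms, ?_⟩
    have hxl : Tendsto (fun n => x (ns (ms n))) atTop (𝓝 ψ) :=
      hx.comp (hns.comp hms.tendsto_atTop)
    have hby : b y = a ψ := tendsto_nhds_unique ((hbc.tendsto y).comp hy)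
      (((hac.tendsto ψ).comp hxl).congr fun n => (hbs _).symm)
    have hPy : lineP h (a ψ) ψ = lineP h (a ψ) y := by
      refine tendsto_nhds_unique (((cont_lineP hh).tendsto (a ψ, ψ)).comp
        (((hac.tendsto ψ).comp hxl).prodMk_nhds hxl)) ?_
      exact (((cont_lineP hh).tendsto (a ψ, y)).comp
        (((hac.tendsto ψ).comp hxl).prodMk_nhds hy)).congr fun n => (hPs _).symm
    rw [huniq ψ y hby hPy]
    exact hy
  have hsinj : Function.Injective s := by
    intro p q e
    have ep := hbs p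
    have eq := hbs q
    rw [e, eq] at ep
    have m1 := hd.mem p
    have m2 := hd.mem q
    simp only [ha] at ep
    refine (lineP_strictMonoOn hh (p + d p)).injOn ⟨by linarith [m1.2], by linarith [m1.1]⟩
      ⟨by linarith [m2.2], by linarith [m2.1]⟩ ?_
    show lineP h (p + d p) p = lineP h (p + d p) q
    have h1 := hPs p
    have h2 := hPs q
    simp only [ha] at h1 h2
    rw [h1, e, ← ep, h2]
  have hsm : StrictMono s := by
    rcases hsc.strictMono_of_inj hsinj with hm | hm
    · exact hm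
    · have := hm (show (0 : ℝ) < 0 + 2 * π by positivity)
      rw [hsper] at this
      linarith [pi_pos]
  have hmono : ∀ f : ℝ → ℝ, Continuous f → Function.Injective f →
      f (0 + 2 * π) = f 0 + 2 * π → StrictMono f := fun f hc hi hp => by
    rcases hc.strictMono_of_inj hi with hm | hm
    · exact hm
    · have := hm (show (0 : ℝ) < 0 + 2 * π by positivity)
      rw [hp] at this
      linarith [pi_pos]
  have hsur : ∀ f : ℝ → ℝ, Continuous f → (∀ t, |f t - t| ≤ π) → Function.Surjective f := by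
    intro f hc hb' z
    obtain ⟨t, -, ht⟩ := intermediate_value_Icc (show z - π ≤ z + π by linarith [pi_pos])
      hc.continuousOn (show z ∈ Icc (f (z - π)) (f (z + π)) from
        ⟨by linarith [(abs_le.1 (hb' (z - π))).2], by linarith [(abs_le.1 (hb' (z + π))).1]⟩)
    exact ⟨t, ht⟩
  have hainj : Function.Injective a := by
    intro p q e
    wlog hpq : p ≤ q generalizing p q
    · exact (this e.symm (le_of_not_ge hpq)).symm
    by_contra hne
    have hlt : p < q := lt_of_le_of_ne hpq hne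
    have m1 := hd.mem p
    have m2 := hd.mem q
    have n1 := hd.mem (s p)
    have n2 := hd.mem (s q)
    have e1 := hbs p
    have e2 := hbs q
    have p1 := hPs p
    have p2 := hPs q
    simp only [ha, hb] at e e1 e2 p1 p2
    rw [← e] at e2 p2
    have h1 : lineP h (p + d p) p < lineP h (p + d p) q := lineP_strictMonoOn hh (p + d p)
      ⟨by linarith [m1.2], by linarith [m1.1]⟩ ⟨by linarith [m2.2], by linarith [m2.1]⟩ hlt
    have h2 : lineP h (p + d p) (s q) < lineP h (p + d p) (s p) := lineP_strictAntiOn hh (p + d p)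
      ⟨by linarith [n1.1], by linarith [n1.2]⟩ ⟨by linarith [n2.1], by linarith [n2.2]⟩ (hsm hlt)
    linarith
  have ham : StrictMono a :=
    hmono a hac hainj (by simp only [ha, hd.periodic 0]; ring)
  have hasur : Function.Surjective a := hsur a hac fun t => by
    simp only [ha, add_sub_cancel_left, abs_of_pos (hd.mem t).1]; exact (hd.mem t).2.le
  have hssur : Function.Surjective s := fun y => by
    obtain ⟨p, hp⟩ := hd.backward y
    exact ⟨p, huniq p y (lineP_of_step hp).1 (lineP_of_step hp).2⟩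
  have hbm : StrictMono b := fun p q hpq => by
    obtain ⟨p', rfl⟩ := hssur p
    obtain ⟨q', rfl⟩ := hssur q
    rw [hbs, hbs]
    exact ham (hsm.lt_iff_lt.1 hpq)
  have hbsur : Function.Surjective b := fun z => by
    obtain ⟨p, hp⟩ := hasur z
    exact ⟨s p, (hbs p).trans hp⟩
  set e := StrictMono.orderIsoOfSurjective a ham hasur
  have hea : ∀ ψ, e.symm (a ψ) = ψ := fun ψ => e.symm_apply_apply ψ
  refine ⟨ham, hasur, hbm, hbsur, fun φ => lineP h φ (e.symm φ),
    (cont_lineP hh).comp (continuous_id.prodMk e.symm.continuous), fun φ => ?_, fun ψ => ?_,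
    fun y => ?_⟩
  · obtain ⟨p, rfl⟩ := hasur φ
    have e2 : a (p + 2 * π) = a p + 2 * π := by simp only [ha, hd.periodic p]; ring
    show lineP h _ (e.symm _) = lineP h _ (e.symm _)
    rw [← e2, hea, hea, e2, lineP_add hh]
  · show lineP h _ (e.symm (a ψ)) = _
    rw [hea]
  · show lineP h (b y) (e.symm (b y)) = lineP h (b y) y
    obtain ⟨p, rfl⟩ := hssur y
    rw [hbs, hea, hPs]

lemma hasDerivAt_act_right (x y : ℝ) :
    HasDerivAt (fun t => act h x t) (lineP h y ((x + y) / 2)) y := by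
  have e1 : HasDerivAt (fun t => (x + t) / 2) (1 / 2) y :=
    (((hasDerivAt_id y).const_add x).div_const 2)
  have e2 : HasDerivAt (fun t => (t - x) / 2) (1 / 2) y :=
    (((hasDerivAt_id y).sub_const x).div_const 2)
  refine (((hasDerivAt_h hh _).comp y e1).const_mul 2 |>.mul e2.sin).congr_deriv ?_
  simp only [lineP, Function.comp_apply, show y - (x + y) / 2 = (y - x) / 2 by ring]
  ring

lemma hasDerivAt_act_left (x y : ℝ) :
    HasDerivAt (fun t => act h t y) (-lineP h x ((x + y) / 2)) x := by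
  have e1 : HasDerivAt (fun t => (t + y) / 2) (1 / 2) x :=
    (((hasDerivAt_id x).add_const y).div_const 2)
  have e2 : HasDerivAt (fun t => (y - t) / 2) (-1 / 2) x :=
    (((hasDerivAt_id x).const_sub y).div_const 2)
  refine (((hasDerivAt_h hh _).comp x e1).const_mul 2 |>.mul e2.sin).congr_deriv ?_
  simp only [lineP, Function.comp_apply, show x - (x + y) / 2 = -((y - x) / 2) by ring, cos_neg, sin_neg]
  ring

/-- An invariant curve calibrates the action. -/
theorem calibrated {d : ℝ → ℝ} (hd : IsInvariantCurve h d) :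
    ∃ (u : ℝ → ℝ) (c I : ℝ), (∀ φ, u (φ + 2 * π) = u φ + I) ∧
      (∀ x y, x < y → y < x + 2 * π → act h x y ≤ u y - u x + c) ∧
      ∀ ψ, act h (ψ - d ψ) (ψ + d ψ) = u (ψ + d ψ) - u (ψ - d ψ) + c := by
  obtain ⟨ham, hasur, hbm, hbsur, g, hgc, hgp, hga, hgb⟩ := curve_lines hh hd
  set a : ℝ → ℝ := fun ψ => ψ + d ψ with ha
  set b : ℝ → ℝ := fun ψ => ψ - d ψ with hb
  set ea := StrictMono.orderIsoOfSurjective a ham hasur
  set eb := StrictMono.orderIsoOfSurjective b hbm hbsur
  set u : ℝ → ℝ := fun φ => ∫ t in (0 : ℝ)..φ, g t with hu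
  have hud : ∀ φ, HasDerivAt u (g φ) φ := fun φ => (hgc.integral_hasStrictDerivAt 0 φ).hasDerivAt
  set Φ : ℝ → ℝ → ℝ := fun x y => act h x y - u y + u x with hΦ
  have hy : ∀ x y, HasDerivAt (fun t => Φ x t) (lineP h y ((x + y) / 2) - g y) y := fun x y =>
    ((hasDerivAt_act_right hh x y).sub (hud y)).add_const (u x)
  have hx : ∀ x y, HasDerivAt (fun t => Φ t y) (-lineP h x ((x + y) / 2) + g x) x := fun x y =>
    ((hasDerivAt_act_left hh x y).sub_const (u y)).add (hud x)
  set Y : ℝ → ℝ := fun x => a (eb.symm x) with hY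
  have hYc : Continuous Y := (continuous_id.add hd.cont).comp eb.symm.continuous
  have hYb : ∀ ψ, Y (b ψ) = a ψ := fun ψ => by
    show a (eb.symm (b ψ)) = a ψ
    rw [show eb.symm (b ψ) = ψ from eb.symm_apply_apply ψ]
  have hYx : ∀ x, x < Y x ∧ Y x < x + 2 * π := by
    intro x
    obtain ⟨ψ, rfl⟩ := hbsur x
    have m := hd.mem ψ
    rw [hYb]
    simp only [ha, hb]
    constructor <;> linarith [m.1, m.2]
  have hmax : ∀ x y, x < y → y < x + 2 * π → Φ x y ≤ Φ x (Y x) := by
    intro x y h1 h2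
    have key : ∀ z, x < z → z < x + 2 * π →
        (z < Y x → 0 < lineP h z ((x + z) / 2) - g z) ∧
        (Y x < z → lineP h z ((x + z) / 2) - g z < 0) := by
      intro z h3 h4
      obtain ⟨ψ, rfl⟩ := hasur z
      obtain ⟨χ, rfl⟩ := hbsur x
      have m := hd.mem ψ
      simp only [ha, hb] at h3 h4
      rw [show g (a ψ) = lineP h (a ψ) ψ from hga ψ]
      constructor
      · intro hlt
        rw [hYb] at hlt
        have hψχ : ψ < χ := ham.lt_iff_lt.1 hlt
        have hbb : b ψ < b χ := hbm hψχ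
        simp only [ha, hb] at hbb
        refine sub_pos.2 (lineP_strictMonoOn hh (a ψ) ⟨?_, ?_⟩ ⟨?_, ?_⟩ ?_) <;>
          simp only [ha, hb] <;> linarith [m.1, m.2]
      · intro hlt
        rw [hYb] at hlt
        have hψχ : χ < ψ := ham.lt_iff_lt.1 hlt
        have hbb : b χ < b ψ := hbm hψχ
        simp only [ha, hb] at hbb
        refine sub_neg.2 (lineP_strictMonoOn hh (a ψ) ⟨?_, ?_⟩ ⟨?_, ?_⟩ ?_) <;>
          simp only [ha, hb] <;> linarith [m.1, m.2]
    obtain ⟨y1, y2⟩ := hYx x
    rcases le_total y (Y x) with hle | hle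
    · refine monotoneOn_of_deriv_nonneg (convex_Icc y (Y x))
        (fun t _ => (hy x t).continuousAt.continuousWithinAt)
        (fun t _ => (hy x t).differentiableAt.differentiableWithinAt) (fun t ht => ?_)
        (left_mem_Icc.2 hle) (right_mem_Icc.2 hle) hle
      rw [interior_Icc] at ht
      rw [(hy x t).deriv]
      exact ((key t (by linarith [ht.1]) (by linarith [ht.2])).1 ht.2).le
    · refine antitoneOn_of_deriv_nonpos (convex_Icc (Y x) y)
        (fun t _ => (hy x t).continuousAt.continuousWithinAt)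
        (fun t _ => (hy x t).differentiableAt.differentiableWithinAt) (fun t ht => ?_)
        (left_mem_Icc.2 hle) (right_mem_Icc.2 hle) hle
      rw [interior_Icc] at ht
      rw [(hy x t).deriv]
      exact ((key t (by linarith [ht.1]) (by linarith [ht.2])).2 ht.1).le
  set K : ℝ → ℝ := fun x => Φ x (Y x) with hK
  set D : ℝ → ℝ → ℝ := fun x y => -lineP h x ((x + y) / 2) + g x with hD
  have hDc : Continuous fun q : ℝ × ℝ => D q.1 q.2 := by
    simp only [hD]
    exact ((cont_lineP hh).comp (f := fun q : ℝ × ℝ => (q.1, (q.1 + q.2) / 2)) (by fun_prop)).neg.add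
      (hgc.comp continuous_fst)
  have hD0 : ∀ x, D x (Y x) = 0 := by
    intro x
    obtain ⟨ψ, rfl⟩ := hbsur x
    rw [hYb]
    simp only [hD, ha, hb, hgb]
    rw [show (ψ - d ψ + (ψ + d ψ)) / 2 = ψ by ring]
    ring
  have hKd : ∀ x₀, HasDerivAt K 0 x₀ := by
    intro x₀
    rw [hasDerivAt_iff_isLittleO]
    refine Asymptotics.isLittleO_iff.2 fun ε hε => ?_
    have h0 : ∀ᶠ q in 𝓝 (x₀, Y x₀), |D (q : ℝ × ℝ).1 q.2| < ε ∧ q.1 < q.2 ∧ q.2 < q.1 + 2 * π := by
      refine ((hDc.abs.tendsto (x₀, Y x₀)).eventually_lt_const (by simp [hD0, hε])).and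
        (((continuous_fst.tendsto (x₀, Y x₀)).eventually_lt (continuous_snd.tendsto (x₀, Y x₀))
          (hYx x₀).1).and
        ((continuous_snd.tendsto (x₀, Y x₀)).eventually_lt
          ((show Continuous fun q : ℝ × ℝ => q.1 + 2 * π by fun_prop).tendsto (x₀, Y x₀))
          (hYx x₀).2))
    obtain ⟨r, hr, hball⟩ := Metric.eventually_nhds_iff.1 h0
    filter_upwards [Metric.ball_mem_nhds x₀ hr,
      (hYc.tendsto x₀).eventually (Metric.ball_mem_nhds (Y x₀) hr)] with x hxr hYr
    simp only [smul_zero, sub_zero, Real.norm_eq_abs]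
    have mvt : ∀ y, dist y (Y x₀) < r → |Φ x y - Φ x₀ y| ≤ ε * |x - x₀| := by
      intro y hyr
      have := Convex.norm_image_sub_le_of_norm_hasDerivWithin_le
        (f := fun t => Φ t y) (f' := fun t => D t y) (C := ε) (s := uIcc x₀ x)
        (fun t _ => (hx t y).hasDerivWithinAt) (fun t ht => ?_) (convex_uIcc x₀ x)
        left_mem_uIcc right_mem_uIcc
      · simpa [Real.norm_eq_abs] using this
      · refine (hball (y := (t, y)) ?_).1.le
        rw [Prod.dist_eq, max_lt_iff]
        refine ⟨lt_of_le_of_lt ?_ (Metric.mem_ball.1 hxr), hyr⟩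
        rw [Real.dist_eq, Real.dist_eq]
        exact abs_sub_left_of_mem_uIcc ht
    have m1 := mvt (Y x) (Metric.mem_ball.1 hYr)
    have m2 := mvt (Y x₀) (by rw [dist_self]; exact hr)
    have ok1 := (hball (y := (x₀, Y x)) (by
      rw [Prod.dist_eq, dist_self]; exact max_lt hr (Metric.mem_ball.1 hYr))).2
    have ok2 := (hball (y := (x, Y x₀)) (by
      rw [Prod.dist_eq, dist_self]; exact max_lt (Metric.mem_ball.1 hxr) hr)).2
    have u1 := hmax x₀ (Y x) ok1.1 ok1.2
    have u2 := hmax x (Y x₀) ok2.1 ok2.2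
    rw [abs_le] at m1 m2 ⊢
    simp only [hK]
    constructor <;> linarith
  have hKc : ∀ x, K x = K 0 := fun x =>
    is_const_of_deriv_eq_zero (fun z => (hKd z).differentiableAt) (fun z => (hKd z).deriv) x 0
  refine ⟨u, K 0, ∫ t in (0 : ℝ)..(2 * π), g t, fun φ => ?_, fun x y h1 h2 => ?_, fun ψ => ?_⟩
  · simp only [hu]
    rw [← intervalIntegral.integral_add_adjacent_intervals (b := φ)
      (hgc.intervalIntegrable _ _) (hgc.intervalIntegrable _ _),
      (show Function.Periodic g (2 * π) from hgp).intervalIntegral_add_eq φ 0, zero_add]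
  · have := hmax x y h1 h2
    rw [show Φ x (Y x) = K 0 from hKc x] at this
    simp only [hΦ] at this
    linarith
  · have := hKc (b ψ)
    simp only [hK] at this
    rw [hYb] at this
    simp only [hΦ, ha, hb] at this ⊢
    linarith

end

end Vale.Agent.P097
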