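import Vale.Agent.P097.Calib

/-!
Comparison: a table with invariant curves near the boundary which contains a model table and
touches it along a periodic orbit of a completely periodic invariant curve equals the model.
-/

namespace Vale.Agent.P097

open Real Set Finset

noncomputable section

/-- A completely periodic curve: orbits of `k` bounces and `p` turns through every point. -/
def FullyPeriodic (g e : ℝ → ℝ) (k p : ℕ) : Prop :=
  ∀ t, ∃ z : ℕ → ℝ, z 0 = t ∧ z k = t + 2 * π * p ∧
    ∀ j < k, Step g (z j, e (z j)) (z (j + 1), e (z (j + 1)))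

lemma periodic_orbit_sum {u : ℝ → ℝ} {I : ℝ} (hI : ∀ φ, u (φ + 2 * π) = u φ + I) (p : ℕ) (φ : ℝ) :
    u (φ + 2 * π * p) = u φ + p * I := by
  induction p with
  | zero => simp
  | succ p ih =>
    rw [show φ + 2 * π * ((p + 1 : ℕ) : ℝ) = φ + 2 * π * p + 2 * π by push_cast; ring, hI, ih]
    push_cast; ring

/-- Telescoping along a closed orbit. -/
lemma orbit_telescope {g e u : ℝ → ℝ} {I : ℝ} (hI : ∀ φ, u (φ + 2 * π) = u φ + I) {k p : ℕ}
    {z : ℕ → ℝ} (he : Function.Periodic e (2 * π)) (hzk : z k = z 0 + 2 * π * p)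
    (hst : ∀ j < k, Step g (z j, e (z j)) (z (j + 1), e (z (j + 1)))) :
    ∑ j ∈ range k, (u (z j + e (z j)) - u (z j - e (z j))) = p * I := by
  have hj : ∀ j ∈ range k, u (z j + e (z j)) - u (z j - e (z j)) =
      (fun i => u (z i - e (z i))) (j + 1) - (fun i => u (z i - e (z i))) j := by
    intro j hj
    have := (lineP_of_step (hst j (Finset.mem_range.1 hj))).1
    simp only at this
    simp only [this]
  rw [Finset.sum_congr rfl hj, Finset.sum_range_sub (fun i => u (z i - e (z i)))]
  have : e (z 0 + 2 * π * p) = e (z 0) := by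
    rw [show z 0 + 2 * π * (p : ℝ) = z 0 + (p : ℝ) * (2 * π) by ring]
    exact he.nat_mul p (z 0)
  rw [hzk, this, add_sub_right_comm, periodic_orbit_sum hI]
  ring

/-- Comparison with a model table. -/
theorem inscribed_eq {h g e : ℝ → ℝ} (hh : IsTable h) (hg : IsTable g)
    (hce : IsInvariantCurve g e) {η : ℝ} (hc : CurvesBelow h η) {k p : ℕ} (hk : 1 ≤ k)
    (hper : FullyPeriodic g e k p) {z : ℕ → ℝ} (hzk : z k = z 0 + 2 * π * p)
    (hst : ∀ j < k, Step g (z j, e (z j)) (z (j + 1), e (z (j + 1)))) (hη : e (z 0) < η)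
    (hle : ∀ t, g t ≤ h t) (heq : ∀ j < k, h (z j) = g (z j)) : ∀ t, h t = g t := by
  have hvk : ∀ j ≤ k, h (z j) = g (z j) := by
    intro j hj
    rcases hj.lt_or_eq with hj' | rfl
    · exact heq j hj'
    · rw [hzk, show z 0 + 2 * π * (p : ℝ) = z 0 + (p : ℝ) * (2 * π) by ring,
        hh.periodic.nat_mul p, hg.periodic.nat_mul p]
      exact heq 0 (by omega)
  have hdk : ∀ j ≤ k, deriv h (z j) = deriv g (z j) := by
    intro j hj
    have hmin : IsLocalMin (fun t => h t - g t) (z j) :=
      Filter.Eventually.of_forall fun t => by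
        show h (z j) - g (z j) ≤ h t - g t
        linarith [hle t, hvk j hj]
    have := hmin.hasDerivAt_eq_zero ((hasDerivAt_h hh (z j)).sub (hasDerivAt_h hg (z j)))
    linarith
  -- the orbit is an orbit of `h`, on one invariant curve
  have hbd : ∀ j ≤ k, bdry h (z j) = bdry g (z j) := fun j hj => by
    simp only [bdry, hvk j hj, hdk j hj]
  obtain ⟨d, hd, hd0⟩ := hc (z 0) (e (z 0)) (hce.mem _).1 hη
  have hdj : ∀ j ≤ k, d (z j) = e (z j) := by
    intro j
    induction j with
    | zero => intro _; exact hd0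
    | succ j ih =>
      intro hj
      have hs : Step h (z j, e (z j)) (z (j + 1), e (z (j + 1))) := by
        obtain ⟨a1, a2, a3, l, hl, a4⟩ := hst j (by omega)
        refine ⟨a1, a2, a3, l, hl, ?_⟩
        show bdry h (z (j + 1)) - bdry h (z j) = _
        rw [hbd j (by omega), hbd (j + 1) hj]
        exact a4
      obtain ⟨y, hy⟩ := hd.forward (z j)
      obtain ⟨e1, e2⟩ := lineP_of_step hy
      obtain ⟨f1, f2⟩ := lineP_of_step hs
      simp only [ih (by omega)] at e1 e2
      simp only at f1 f2
      have m := hd.mem y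
      have m' := hce.mem (z (j + 1))
      have hyz : y = z (j + 1) := (lineP_strictAntiOn hh _).injOn
        ⟨by linarith [m.1], by linarith [m.2]⟩ ⟨by linarith [m'.1], by linarith [m'.2]⟩
        (e2.symm.trans f2)
      rw [hyz] at e1
      linarith
  obtain ⟨u, c, I, hI, hule, hueq⟩ := calibrated hh hd
  obtain ⟨v, c', J, hJ, -, hveq⟩ := calibrated hg hce
  have hact : ∀ (f : ℝ → ℝ) (t : ℝ), act f (t - e t) (t + e t) = 2 * f t * sin (e t) := fun f t => by
    simp only [act, show (t - e t + (t + e t)) / 2 = t by ring,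
      show (t + e t - (t - e t)) / 2 = e t by ring]
  have sumg : ∀ w : ℕ → ℝ, w k = w 0 + 2 * π * p →
      (∀ j < k, Step g (w j, e (w j)) (w (j + 1), e (w (j + 1)))) →
      ∑ j ∈ range k, 2 * g (w j) * sin (e (w j)) = p * J + k * c' := by
    intro w hw hs
    rw [Finset.sum_congr rfl fun j _ => (hact g (w j)).symm.trans (hveq (w j)),
      Finset.sum_add_distrib, orbit_telescope hJ hce.periodic hw hs, sum_const, card_range,
      nsmul_eq_mul]
  have hval : ∑ j ∈ range k, 2 * g (z j) * sin (e (z j)) = p * I + k * c := by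
    have hterm : ∀ j ∈ range k, 2 * g (z j) * sin (e (z j)) =
        u (z j + e (z j)) - u (z j - e (z j)) + c := by
      intro j hj
      have hj' := Finset.mem_range.1 hj
      have := hueq (z j)
      rw [hdj j hj'.le, hact, heq j hj'] at this
      exact this
    rw [Finset.sum_congr rfl hterm, Finset.sum_add_distrib, orbit_telescope hI hce.periodic hzk hst,
      sum_const, card_range, nsmul_eq_mul]
  intro t
  obtain ⟨w, hw0, hwk, hws⟩ := hper t
  rw [← hw0] at hwk
  have h1 : ∑ j ∈ range k, 2 * h (w j) * sin (e (w j)) ≤ p * I + k * c := by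
    calc ∑ j ∈ range k, 2 * h (w j) * sin (e (w j))
        ≤ ∑ j ∈ range k, (u (w j + e (w j)) - u (w j - e (w j)) + c) := by
          refine Finset.sum_le_sum fun j _ => ?_
          rw [← hact]
          have m := hce.mem (w j)
          exact hule _ _ (by linarith [m.1]) (by linarith [m.2])
      _ = _ := by
          rw [Finset.sum_add_distrib, orbit_telescope hI hce.periodic hwk hws, sum_const, card_range,
            nsmul_eq_mul]
  rw [← hval, sumg z hzk hst, ← sumg w hwk hws] at h1
  have hs : ∀ j, 0 < sin (e (w j)) := fun j =>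
    sin_pos_of_pos_of_lt_pi (hce.mem _).1 (hce.mem _).2
  have hsame : ∑ j ∈ range k, 2 * g (w j) * sin (e (w j)) =
      ∑ j ∈ range k, 2 * h (w j) * sin (e (w j)) :=
    le_antisymm (Finset.sum_le_sum fun j _ =>
      mul_le_mul_of_nonneg_right (by linarith [hle (w j)]) (hs j).le) h1
  have := (Finset.sum_eq_sum_iff_of_le fun j _ =>
    mul_le_mul_of_nonneg_right (by linarith [hle (w j)]) (hs j).le).1 hsame 0
      (Finset.mem_range.2 (by omega))
  rw [hw0] at this
  linarith [mul_right_cancel₀ (hw0 ▸ (hs 0)).ne' this]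

end

end Vale.Agent.P097
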