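import Mathlib

/-!
Convex billiard tables through their support function, the billiard relation and invariant curves.
-/

namespace Vale.Agent.P097

open Real

/-- A `C²` support function of a strictly convex table with positive curvature. -/
structure IsTable (h : ℝ → ℝ) : Prop where
  smooth : ContDiff ℝ 2 h
  periodic : Function.Periodic h (2 * π)
  radius_pos : ∀ ψ, 0 < h ψ + deriv (deriv h) ψ

/-- The boundary point with outer normal `(cos ψ, sin ψ)`. -/
noncomputable def bdry (h : ℝ → ℝ) (ψ : ℝ) : ℝ × ℝ :=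
  (h ψ * cos ψ - deriv h ψ * sin ψ, h ψ * sin ψ + deriv h ψ * cos ψ)

/-- One billiard step: from the boundary point `x.1` at angle `x.2` with the positive tangent to
`y.1`, where the velocity makes the angle `y.2` with the tangent and is reflected to that angle. -/
def Step (h : ℝ → ℝ) (x y : ℝ × ℝ) : Prop :=
  x.2 ∈ Set.Ioo 0 π ∧ y.2 ∈ Set.Ioo 0 π ∧ y.1 - y.2 = x.1 + x.2 ∧
    ∃ l : ℝ, 0 < l ∧ bdry h y.1 - bdry h x.1 = l • (-sin (x.1 + x.2), cos (x.1 + x.2))

/-- A rotational invariant curve `δ = d ψ` of the billiard map. -/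
structure IsInvariantCurve (h d : ℝ → ℝ) : Prop where
  cont : Continuous d
  periodic : Function.Periodic d (2 * π)
  mem : ∀ ψ, d ψ ∈ Set.Ioo 0 π
  forward : ∀ ψ, ∃ ψ', Step h (ψ, d ψ) (ψ', d ψ')
  backward : ∀ ψ', ∃ ψ, Step h (ψ, d ψ) (ψ', d ψ')

/-- Every phase point with angle below `η` lies on an invariant curve. -/
def CurvesBelow (h : ℝ → ℝ) (η : ℝ) : Prop :=
  ∀ ψ δ : ℝ, 0 < δ → δ < η → ∃ d, IsInvariantCurve h d ∧ d ψ = δ

end Vale.Agent.P097
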