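import Vale.Agent.P097.Compare

/-!
Ellipses: the confocal caustics as invariant curves, and their periodicity.
-/

namespace Vale.Agent.P097

open Real Set

noncomputable section

/-- The support function of the ellipse with semi-axes `a` and `b`, centred at the origin. -/
def ellH (a b ψ : ℝ) : ℝ := sqrt (a ^ 2 * cos ψ ^ 2 + b ^ 2 * sin ψ ^ 2)

/-- The angle of the confocal caustic with parameter `c`. -/
def ellE (a b c ψ : ℝ) : ℝ := arcsin (c * ellH a b ψ)

lemma step_of_lineP {h : ℝ → ℝ} (hh : IsTable h) {x y : ℝ × ℝ} (hx : x.2 ∈ Ioo 0 π)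
    (hy : y.2 ∈ Ioo 0 π) (e : y.1 - y.2 = x.1 + x.2)
    (hP : lineP h (x.1 + x.2) x.1 = lineP h (x.1 + x.2) y.1) : Step h x y := by
  set φ := x.1 + x.2
  set l := -(sin φ) * ((bdry h y.1).1 - (bdry h x.1).1) +
    cos φ * ((bdry h y.1).2 - (bdry h x.1).2) with hl
  have h0 : cos φ * ((bdry h y.1).1 - (bdry h x.1).1) +
      sin φ * ((bdry h y.1).2 - (bdry h x.1).2) = 0 := by
    have := hP
    simp only [lineP, cos_sub, sin_sub] at this
    simp only [bdry]
    linarith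
  refine ⟨hx, hy, e, l, ?_, ?_⟩
  · have hmax : lineP h y.1 x.1 < lineP h y.1 y.1 := by
      have hxy : x.1 < y.1 := by linarith [hx.1, hy.1]
      rcases le_or_gt (y.1 - π) x.1 with hc | hc
      · exact lineP_strictMonoOn hh y.1 ⟨hc, hxy.le⟩ ⟨by linarith [pi_pos], le_rfl⟩ hxy
      · have hgt : y.1 < x.1 + 2 * π := by linarith [hx.2, hy.2]
        have e2 : lineP h y.1 (x.1 + 2 * π) = lineP h y.1 x.1 := by
          simp only [lineP, hh.periodic x.1, deriv_periodic hh, ← sub_sub, cos_sub_two_pi,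
            sin_sub_two_pi]
        rw [← e2]
        exact lineP_strictAntiOn hh y.1 ⟨le_rfl, by linarith [pi_pos]⟩ ⟨hgt.le, by linarith⟩ hgt
    have hsin : 0 < sin y.2 := sin_pos_of_pos_of_lt_pi hy.1 hy.2
    have key : lineP h y.1 y.1 - lineP h y.1 x.1 = l * sin y.2 := by
      rw [show y.2 = y.1 - φ by linarith, sin_sub]
      simp only [lineP, sub_self, cos_zero, sin_zero, cos_sub, sin_sub, hl]
      simp only [bdry] at h0 ⊢
      linear_combination (cos y.1 * cos φ + sin y.1 * sin φ) * h0 -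
        ((h y.1) - (cos y.1 * (h x.1 * cos x.1 - deriv h x.1 * sin x.1)
          + sin y.1 * (h x.1 * sin x.1 + deriv h x.1 * cos x.1))) * sin_sq_add_cos_sq φ -
        (h y.1) * sin φ ^ 2 * 0 + ((h y.1) * (sin φ ^ 2 + cos φ ^ 2) - h y.1) * 0 +
        ((h y.1) * (-(sin φ ^ 2) - cos φ ^ 2)) * sin_sq_add_cos_sq y.1
    by_contra hle
    nlinarith [mul_nonpos_of_nonpos_of_nonneg (not_lt.1 hle) hsin.le]
  · refine Prod.ext ?_ ?_ <;> simp only [Prod.fst_sub, Prod.snd_sub, Prod.smul_fst, Prod.smul_snd,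
      smul_eq_mul, hl]
    · linear_combination cos φ * h0 -
        ((bdry h y.1).1 - (bdry h x.1).1) * sin_sq_add_cos_sq φ
    · linear_combination sin φ * h0 -
        ((bdry h y.1).2 - (bdry h x.1).2) * sin_sq_add_cos_sq φ

section

variable {a b c : ℝ} (ha : 0 < a) (hb : 0 < b) (hc : 0 < c) (hca : c * a < 1) (hcb : c * b < 1)

include ha hb in
lemma ellQ_pos (ψ : ℝ) : 0 < a ^ 2 * cos ψ ^ 2 + b ^ 2 * sin ψ ^ 2 := by
  rcases eq_or_ne (cos ψ) 0 with e | e
  · have : sin ψ ^ 2 = 1 := by nlinarith [sin_sq_add_cos_sq ψ, sq_nonneg (sin ψ)]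
    rw [e, this]; positivity
  · have : 0 < cos ψ ^ 2 := by positivity
    positivity

include ha hb in
lemma ellH_pos (ψ : ℝ) : 0 < ellH a b ψ := sqrt_pos.2 (ellQ_pos ha hb ψ)

include ha hb in
lemma ellH_sq (ψ : ℝ) : ellH a b ψ ^ 2 = a ^ 2 * cos ψ ^ 2 + b ^ 2 * sin ψ ^ 2 :=
  sq_sqrt (ellQ_pos ha hb ψ).le

include ha hb in
lemma ellH_deriv (ψ : ℝ) :
    HasDerivAt (ellH a b) ((b ^ 2 - a ^ 2) * sin ψ * cos ψ / ellH a b ψ) ψ := by
  have h1 := ((((hasDerivAt_cos ψ).fun_pow 2).const_mul (a ^ 2)).add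
    (((hasDerivAt_sin ψ).fun_pow 2).const_mul (b ^ 2))).sqrt (ellQ_pos ha hb ψ).ne'
  refine h1.congr_deriv ?_
  have := ellH_pos ha hb ψ
  simp only [ellH, Pi.add_apply]
  field_simp
  push_cast
  ring

include ha hb in
lemma ell_table : IsTable (ellH a b) := by
  refine ⟨?_, fun ψ => by simp [ellH, cos_add_two_pi, sin_add_two_pi], fun ψ => ?_⟩
  · exact ContDiff.sqrt (by fun_prop) fun ψ => (ellQ_pos ha hb ψ).ne'
  · have e1 : deriv (ellH a b) = fun ψ => (b ^ 2 - a ^ 2) * sin ψ * cos ψ / ellH a b ψ :=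
      funext fun t => (ellH_deriv ha hb t).deriv
    have hp := ellH_pos ha hb ψ
    have h2 : HasDerivAt (fun t => (b ^ 2 - a ^ 2) * sin t * cos t / ellH a b t)
        (((b ^ 2 - a ^ 2) * (cos ψ * cos ψ - sin ψ * sin ψ) * ellH a b ψ -
          (b ^ 2 - a ^ 2) * sin ψ * cos ψ * ((b ^ 2 - a ^ 2) * sin ψ * cos ψ / ellH a b ψ)) /
          ellH a b ψ ^ 2) ψ := by
      refine ((((hasDerivAt_sin ψ).const_mul (b ^ 2 - a ^ 2)).mul (hasDerivAt_cos ψ)).div
        (ellH_deriv ha hb ψ) hp.ne').congr_deriv ?_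
      simp only [Pi.mul_apply]
      ring
    rw [e1, h2.deriv]
    have key : ellH a b ψ + ((b ^ 2 - a ^ 2) * (cos ψ * cos ψ - sin ψ * sin ψ) * ellH a b ψ -
          (b ^ 2 - a ^ 2) * sin ψ * cos ψ * ((b ^ 2 - a ^ 2) * sin ψ * cos ψ / ellH a b ψ)) /
          ellH a b ψ ^ 2 = a ^ 2 * b ^ 2 / ellH a b ψ ^ 3 := by
      field_simp
      have e := ellH_sq ha hb ψ
      linear_combination (ellH a b ψ ^ 2 + a ^ 2 * cos ψ ^ 2 + b ^ 2 * sin ψ ^ 2 +
        (b ^ 2 - a ^ 2) * (cos ψ ^ 2 - sin ψ ^ 2)) * e +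
        a ^ 2 * b ^ 2 * (sin ψ ^ 2 + cos ψ ^ 2 + 1) * sin_sq_add_cos_sq ψ
    rw [key]
    positivity

include ha hb hc hca hcb

lemma ellE_sin (ψ : ℝ) : sin (ellE a b c ψ) = c * ellH a b ψ ∧ c * ellH a b ψ < 1 := by
  have hp := ellH_pos ha hb ψ
  have h1 : (c * ellH a b ψ) ^ 2 < 1 := by
    rw [mul_pow, ellH_sq ha hb]
    have x1 : (c * a) ^ 2 < 1 := pow_lt_one₀ (by positivity) hca two_ne_zero
    have x2 : (c * b) ^ 2 < 1 := pow_lt_one₀ (by positivity) hcb two_ne_zero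
    calc c ^ 2 * (a ^ 2 * cos ψ ^ 2 + b ^ 2 * sin ψ ^ 2)
        = (c * a) ^ 2 * cos ψ ^ 2 + (c * b) ^ 2 * sin ψ ^ 2 := by ring
      _ ≤ max ((c * a) ^ 2) ((c * b) ^ 2) * cos ψ ^ 2 +
          max ((c * a) ^ 2) ((c * b) ^ 2) * sin ψ ^ 2 :=
        add_le_add (mul_le_mul_of_nonneg_right (le_max_left _ _) (sq_nonneg _))
          (mul_le_mul_of_nonneg_right (le_max_right _ _) (sq_nonneg _))
      _ = max ((c * a) ^ 2) ((c * b) ^ 2) := by rw [← mul_add, cos_sq_add_sin_sq, mul_one]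
      _ < 1 := max_lt x1 x2
  have h2 : c * ellH a b ψ < 1 := by nlinarith [mul_pos hc hp]
  exact ⟨sin_arcsin (by nlinarith [mul_pos hc hp]) h2.le, h2⟩

lemma ellE_mem (ψ : ℝ) : ellE a b c ψ ∈ Ioo 0 π ∧ 0 < cos (ellE a b c ψ) := by
  obtain ⟨-, h2⟩ := ellE_sin ha hb hc hca hcb ψ
  have h1 : 0 < ellE a b c ψ := arcsin_pos.2 (mul_pos hc (ellH_pos ha hb ψ))
  have h3 : ellE a b c ψ < π / 2 := arcsin_lt_pi_div_two.2 h2
  exact ⟨⟨h1, by linarith [pi_pos]⟩, cos_pos_of_mem_Ioo ⟨by linarith [pi_pos], h3⟩⟩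

lemma ellE_deriv (ψ : ℝ) : HasDerivAt (ellE a b c)
    (c * ((b ^ 2 - a ^ 2) * sin ψ * cos ψ / ellH a b ψ) / cos (ellE a b c ψ)) ψ := by
  obtain ⟨-, h2⟩ := ellE_sin ha hb hc hca hcb ψ
  have h1 := (hasDerivAt_arcsin (x := c * ellH a b ψ)
    (by nlinarith [mul_pos hc (ellH_pos ha hb ψ)]) h2.ne).comp ψ ((ellH_deriv ha hb ψ).const_mul c)
  refine h1.congr_deriv ?_
  rw [ellE, cos_arcsin]
  ring

/-- The lines of the caustic: their support function and positivity. -/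
lemma ell_lines (ψ : ℝ) :
    lineP (ellH a b) (ψ + ellE a b c ψ) ψ =
        sqrt (ellH a b (ψ + ellE a b c ψ) ^ 2 - a ^ 2 * b ^ 2 * c ^ 2) ∧
      lineP (ellH a b) (ψ - ellE a b c ψ) ψ =
        sqrt (ellH a b (ψ - ellE a b c ψ) ^ 2 - a ^ 2 * b ^ 2 * c ^ 2) ∧
      0 < lineP (ellH a b) (ψ + ellE a b c ψ) ψ ∧ 0 < lineP (ellH a b) (ψ - ellE a b c ψ) ψ := by
  set E := ellE a b c ψ
  set H := ellH a b ψ
  have hp : 0 < H := ellH_pos ha hb ψ
  have hse : sin E = c * H := (ellE_sin ha hb hc hca hcb ψ).1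
  have hce : 0 < cos E := (ellE_mem ha hb hc hca hcb ψ).2
  have hd : deriv (ellH a b) ψ = (b ^ 2 - a ^ 2) * sin ψ * cos ψ / H := (ellH_deriv ha hb ψ).deriv
  have hH : H ^ 2 = a ^ 2 * cos ψ ^ 2 + b ^ 2 * sin ψ ^ 2 := ellH_sq ha hb ψ
  set D := (b ^ 2 - a ^ 2) * sin ψ * cos ψ
  have hsmall : c ^ 2 * (H ^ 4 + D ^ 2) < H ^ 2 := by
    have x1 : (c * a) ^ 2 < 1 := pow_lt_one₀ (by positivity) hca two_ne_zero
    have x2 : (c * b) ^ 2 < 1 := pow_lt_one₀ (by positivity) hcb two_ne_zero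
    have e : H ^ 4 + D ^ 2 = a ^ 4 * cos ψ ^ 2 + b ^ 4 * sin ψ ^ 2 := by
      simp only [D]
      linear_combination (H ^ 2 + a ^ 2 * cos ψ ^ 2 + b ^ 2 * sin ψ ^ 2) * hH +
        (a ^ 4 * cos ψ ^ 2 + b ^ 4 * sin ψ ^ 2) * sin_sq_add_cos_sq ψ
    have hm : max ((c * a) ^ 2) ((c * b) ^ 2) < 1 := max_lt x1 x2
    calc c ^ 2 * (H ^ 4 + D ^ 2)
        = (c * a) ^ 2 * (a ^ 2 * cos ψ ^ 2) + (c * b) ^ 2 * (b ^ 2 * sin ψ ^ 2) := by rw [e]; ring
      _ ≤ max ((c * a) ^ 2) ((c * b) ^ 2) * H ^ 2 := by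
          rw [hH, mul_add]
          exact add_le_add (mul_le_mul_of_nonneg_right (le_max_left _ _) (by positivity))
            (mul_le_mul_of_nonneg_right (le_max_right _ _) (by positivity))
      _ < 1 * H ^ 2 := mul_lt_mul_of_pos_right hm (by positivity)
      _ = H ^ 2 := one_mul _
  have hpos : ∀ σ : ℝ, σ ^ 2 = 1 → 0 < H * cos E + σ * (D / H) * sin E := by
    intro σ hσ
    have e : H * cos E + σ * (D / H) * sin E = (H ^ 2 * cos E + σ * D * sin E) / H := by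
      field_simp
    rw [e]
    refine div_pos ?_ hp
    by_contra hcon
    have h2 : (H ^ 2 * cos E) ^ 2 ≤ (σ * D * sin E) ^ 2 := by
      refine sq_le_sq.2 ?_
      rw [abs_of_pos (by positivity)]
      exact le_trans (by linarith) (neg_le_abs _)
    have h3 : cos E ^ 2 = 1 - c ^ 2 * H ^ 2 := by rw [cos_sq', hse]; ring
    rw [mul_pow, mul_pow, mul_pow, h3, hσ, hse] at h2
    nlinarith [mul_lt_mul_of_pos_left hsmall (show 0 < H ^ 2 by positivity)]
  have hval : ∀ φ : ℝ, sin (φ - ψ) ^ 2 = c ^ 2 * H ^ 2 →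
      lineP (ellH a b) φ ψ ^ 2 = ellH a b φ ^ 2 - a ^ 2 * b ^ 2 * c ^ 2 := by
    intro φ hφ
    have e : lineP (ellH a b) φ ψ =
        (a ^ 2 * cos ψ * cos φ + b ^ 2 * sin ψ * sin φ) / H := by
      simp only [lineP, hd, cos_sub, sin_sub]
      rw [show ellH a b ψ = H from rfl, eq_div_iff hp.ne']
      field_simp
      linear_combination (cos φ * cos ψ + sin φ * sin ψ) * hH +
        (a ^ 2 * cos φ * cos ψ + b ^ 2 * sin φ * sin ψ) * sin_sq_add_cos_sq ψ
    rw [sin_sub] at hφ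
    rw [e, div_pow, div_eq_iff (by positivity), ellH_sq ha hb]
    linear_combination -(a ^ 2 * cos φ ^ 2 + b ^ 2 * sin φ ^ 2) * hH - (a ^ 2 * b ^ 2) * hφ
  have hp1 : 0 < lineP (ellH a b) (ψ + E) ψ := by
    simp only [lineP, add_sub_cancel_left, hd]
    simpa using hpos 1 (one_pow 2)
  have hp2 : 0 < lineP (ellH a b) (ψ - E) ψ := by
    simp only [lineP, sub_sub_cancel_left, cos_neg, sin_neg, hd]
    have := hpos (-1) (by norm_num)
    rw [show ellH a b ψ = H from rfl]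
    linarith
  refine ⟨?_, ?_, hp1, hp2⟩
  · rw [← hval _ (by rw [add_sub_cancel_left, hse]; ring), sqrt_sq hp1.le]
  · rw [← hval _ (by rw [sub_sub_cancel_left, sin_neg, hse]; ring), sqrt_sq hp2.le]

/-- The confocal caustic: monotonicity, an invariant measure, and the invariant curve. -/
theorem ell_curve :
    IsInvariantCurve (ellH a b) (ellE a b c) ∧ ∃ Ψ : ℝ → ℝ, StrictMono Ψ ∧
      (∃ P : ℝ, ∀ (p : ℕ) φ, Ψ (φ + 2 * π * p) = Ψ φ + p * P) ∧
      ∃ ω : ℝ, ∀ ψ, Ψ (ψ + ellE a b c ψ) = Ψ (ψ - ellE a b c ψ) + ω := by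
  set G : ℝ → ℝ := fun φ => sqrt (ellH a b φ ^ 2 - a ^ 2 * b ^ 2 * c ^ 2) with hG
  have hG0 : ∀ φ, 0 < G φ := by
    intro φ
    refine sqrt_pos.2 ?_
    rw [ellH_sq ha hb]
    have x1 : (c * a) ^ 2 < 1 := pow_lt_one₀ (by positivity) hca two_ne_zero
    have x2 : (c * b) ^ 2 < 1 := pow_lt_one₀ (by positivity) hcb two_ne_zero
    have := sin_sq_add_cos_sq φ
    rcases eq_or_ne (cos φ) 0 with e | e
    · have : sin φ ^ 2 = 1 := by nlinarith
      rw [e, this]
      nlinarith [mul_lt_mul_of_pos_left x1 (show 0 < b ^ 2 by positivity)]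
    · have k1 := mul_lt_mul_of_pos_left x2 (show 0 < a ^ 2 * cos φ ^ 2 by positivity)
      have k2 := mul_le_mul_of_nonneg_left x1.le (show 0 ≤ b ^ 2 * sin φ ^ 2 by positivity)
      have k3 : a ^ 2 * b ^ 2 * c ^ 2 * (sin φ ^ 2 + cos φ ^ 2) = a ^ 2 * b ^ 2 * c ^ 2 := by
        rw [this, mul_one]
      nlinarith
  have hHc : Continuous (ellH a b) :=
    continuous_iff_continuousAt.2 fun t => (ellH_deriv ha hb t).continuousAt
  have hGc : Continuous fun φ => 1 / G φ :=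
    continuous_const.div (by simp only [hG]; fun_prop) fun φ => (hG0 φ).ne'
  set Ψ : ℝ → ℝ := fun φ => ∫ t in (0 : ℝ)..φ, 1 / G t with hΨ
  have hΨd : ∀ φ, HasDerivAt Ψ (1 / G φ) φ := fun φ =>
    (hGc.integral_hasStrictDerivAt 0 φ).hasDerivAt
  have hΨm : StrictMono Ψ :=
    strictMono_of_hasDerivAt_pos hΨd fun φ => div_pos one_pos (hG0 φ)
  set E' : ℝ → ℝ := fun ψ =>
    c * ((b ^ 2 - a ^ 2) * sin ψ * cos ψ / ellH a b ψ) / cos (ellE a b c ψ)
  have hEd : ∀ ψ, HasDerivAt (ellE a b c) (E' ψ) ψ := ellE_deriv ha hb hc hca hcb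
  have hQ : ∀ ψ, (1 + E' ψ) * G (ψ - ellE a b c ψ) = (1 - E' ψ) * G (ψ + ellE a b c ψ) := by
    intro ψ
    obtain ⟨l1, l2, -, -⟩ := ell_lines ha hb hc hca hcb ψ
    simp only [hG, ← l1, ← l2, lineP, add_sub_cancel_left, sub_sub_cancel_left, cos_neg, sin_neg,
      (ellE_sin ha hb hc hca hcb ψ).1, (ellH_deriv ha hb ψ).deriv, E']
    have := ellH_pos ha hb ψ
    have := (ellE_mem ha hb hc hca hcb ψ).2
    field_simp
    ring
  have hplus : ∀ ψ, 0 < 1 + E' ψ ∧ 0 < 1 - E' ψ := by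
    intro ψ
    have g1 := hG0 (ψ + ellE a b c ψ)
    have g2 := hG0 (ψ - ellE a b c ψ)
    constructor <;> by_contra hcon <;> nlinarith [hQ ψ]
  have hA : ∀ ψ, HasDerivAt (fun t => t + ellE a b c t) (1 + E' ψ) ψ := fun ψ =>
    (hasDerivAt_id ψ).add (hEd ψ)
  have hB : ∀ ψ, HasDerivAt (fun t => t - ellE a b c t) (1 - E' ψ) ψ := fun ψ =>
    (hasDerivAt_id ψ).sub (hEd ψ)
  have hsurj : ∀ σ : ℝ, |σ| = 1 → Function.Surjective fun t => t + σ * ellE a b c t := by
    intro σ hσ z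
    have hc' : Continuous fun t => t + σ * ellE a b c t :=
      continuous_id.add (continuous_const.mul
        (continuous_iff_continuousAt.2 fun t => (hEd t).continuousAt))
    have hbd : ∀ t, |σ * ellE a b c t| ≤ π := fun t => by
      rw [abs_mul, hσ, one_mul, abs_of_pos (ellE_mem ha hb hc hca hcb t).1.1]
      exact (ellE_mem ha hb hc hca hcb t).1.2.le
    obtain ⟨t, -, ht⟩ := intermediate_value_Icc (show z - π ≤ z + π by linarith [pi_pos])
      hc'.continuousOn (show z ∈ Icc _ _ from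
        ⟨by linarith [(abs_le.1 (hbd (z - π))).2], by linarith [(abs_le.1 (hbd (z + π))).1]⟩)
    exact ⟨t, ht⟩
  have hstep : ∀ x y, y - ellE a b c y = x + ellE a b c x →
      Step (ellH a b) (x, ellE a b c x) (y, ellE a b c y) := by
    intro x y e
    refine step_of_lineP (ell_table ha hb) (ellE_mem ha hb hc hca hcb x).1
      (ellE_mem ha hb hc hca hcb y).1 e ?_
    obtain ⟨l1, -, -, -⟩ := ell_lines ha hb hc hca hcb x
    obtain ⟨-, l2, -, -⟩ := ell_lines ha hb hc hca hcb y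
    rw [e] at l2
    exact l1.trans l2.symm
  have hEper : Function.Periodic (ellE a b c) (2 * π) := fun ψ => by
    rw [ellE, (ell_table ha hb).periodic ψ, ellE]
  refine ⟨⟨continuous_iff_continuousAt.2 fun t => (hEd t).continuousAt, hEper,
    fun ψ => (ellE_mem ha hb hc hca hcb ψ).1, fun x => ?_, fun y => ?_⟩, Ψ, hΨm, ?_, ?_⟩
  · obtain ⟨y, hy⟩ := hsurj (-1) (by simp) (x + ellE a b c x)
    simp only at hy
    exact ⟨y, hstep x y (by linarith)⟩
  · obtain ⟨x, hx⟩ := hsurj 1 (by simp) (y - ellE a b c y)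
    simp only at hx
    exact ⟨x, hstep x y (by linarith)⟩
  · have hp : Function.Periodic (fun t => 1 / G t) (2 * π) := fun t => by
      simp only [hG, (ell_table ha hb).periodic t]
    refine ⟨Ψ (2 * π), fun p φ => periodic_orbit_sum (u := Ψ) (fun χ => ?_) p φ⟩
    simp only [hΨ]
    rw [← intervalIntegral.integral_add_adjacent_intervals (b := χ)
      (hGc.intervalIntegrable _ _) (hGc.intervalIntegrable _ _),
      hp.intervalIntegral_add_eq χ 0, zero_add]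
  · set F : ℝ → ℝ := fun t => Ψ (t + ellE a b c t) - Ψ (t - ellE a b c t)
    have hF : ∀ t, HasDerivAt F 0 t := by
      intro t
      refine (((hΨd _).comp t (hA t)).sub ((hΨd _).comp t (hB t))).congr_deriv ?_
      have g1 := hG0 (t + ellE a b c t)
      have g2 := hG0 (t - ellE a b c t)
      field_simp
      linarith [hQ t]
    refine ⟨F 0, fun ψ => ?_⟩
    have := is_const_of_deriv_eq_zero (fun z => (hF z).differentiableAt) (fun z => (hF z).deriv) ψ 0
    simp only [F] at this ⊢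
    linarith

/-- One closed orbit on a confocal caustic makes all of them close. -/
theorem ell_fullyPeriodic {k p : ℕ} {z : ℕ → ℝ} (hzk : z k = z 0 + 2 * π * p)
    (hst : ∀ j < k,
      Step (ellH a b) (z j, ellE a b c (z j)) (z (j + 1), ellE a b c (z (j + 1)))) :
    FullyPeriodic (ellH a b) (ellE a b c) k p := by
  obtain ⟨hcv, Ψ, hΨm, ⟨P, hP⟩, ω, hω⟩ := ell_curve ha hb hc hca hcb
  have hadv : ∀ w : ℕ → ℝ, (∀ j < k,
      Step (ellH a b) (w j, ellE a b c (w j)) (w (j + 1), ellE a b c (w (j + 1)))) →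
      ∀ j ≤ k, Ψ (w j + ellE a b c (w j)) = Ψ (w 0 + ellE a b c (w 0)) + j * ω := by
    intro w hw j
    induction j with
    | zero => intro _; simp
    | succ j ih =>
      intro hj
      have e := (lineP_of_step (hw j (by omega))).1
      simp only at e
      rw [hω, e, ih (by omega)]
      push_cast; ring
  have hper' : ∀ x, ellE a b c (x + 2 * π * p) = ellE a b c x := fun x => by
    rw [show x + 2 * π * (p : ℝ) = x + (p : ℝ) * (2 * π) by ring]
    exact hcv.periodic.nat_mul p x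
  have hkω : (k : ℝ) * ω = p * P := by
    have := hadv z hst k le_rfl
    rw [hzk, hper', add_right_comm, hP] at this
    linarith
  intro t
  choose s hs using hcv.forward
  set w : ℕ → ℝ := fun j => s^[j] t
  have hw : ∀ j < k,
      Step (ellH a b) (w j, ellE a b c (w j)) (w (j + 1), ellE a b c (w (j + 1))) := fun j _ => by
    simp only [w, Function.iterate_succ_apply']
    exact hs _
  refine ⟨w, rfl, ?_, hw⟩
  have h1 := hadv w hw k le_rfl
  rw [hkω, ← hP, show w 0 = t from rfl, add_right_comm, ← hper' t] at h1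
  obtain ⟨ham, -⟩ := curve_lines (ell_table ha hb) hcv
  exact ham.injective (hΨm.injective h1)

end

end

end Vale.Agent.P097
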