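import Vale.Agent.P097.Calib

/-!
Regular periodic orbits on invariant curves maximise the average of the support function over
regular polygons, so symmetric tables of high order are discs.
-/

namespace Vale.Agent.P097

open Real Set Finset

noncomputable section

variable {h : ℝ → ℝ}

lemma height_pos (hh : IsTable h) {ψ α : ℝ} (hα : 0 < α) (hα' : α ≤ π / 2)
    (h0 : deriv h ψ = 0) (h1 : deriv h (ψ + 2 * α) = 0) (he : h (ψ + 2 * α) = h ψ) : 0 < h ψ := by
  set φ := ψ + α
  set q : ℝ → ℝ := fun t => -(h t * sin (φ - t)) + deriv h t * cos (φ - t)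
  have hq : ∀ t, HasDerivAt q ((h t + deriv (deriv h) t) * cos (φ - t)) t := fun t => by
    have e : HasDerivAt (fun t => φ - t) (-1) t := by simpa using (hasDerivAt_id t).const_sub φ
    refine ((((hasDerivAt_h hh t).mul e.sin)).neg.add ((hasDerivAt_h' hh t).mul e.cos)).congr_deriv ?_
    ring
  have hm : StrictMonoOn q (Icc ψ (ψ + 2 * α)) := by
    refine strictMonoOn_of_deriv_pos (convex_Icc _ _)
      (fun t _ => (hq t).continuousAt.continuousWithinAt) fun t ht => ?_
    rw [interior_Icc] at ht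
    rw [(hq t).deriv]
    refine mul_pos (hh.radius_pos t) (cos_pos_of_mem_Ioo ⟨?_, ?_⟩) <;>
      simp only [φ] <;> linarith [ht.1, ht.2]
  have := hm (left_mem_Icc.2 (by linarith)) (right_mem_Icc.2 (by linarith)) (by linarith)
  simp only [q, φ, h0, h1, he, show ψ + α - (ψ + 2 * α) = -α by ring, add_sub_cancel_left, sin_neg,
    zero_mul, add_zero] at this
  have hs : 0 < sin α := sin_pos_of_pos_of_lt_pi hα (by linarith [pi_pos])
  by_contra hle
  nlinarith [mul_nonneg (neg_nonneg.2 (not_lt.1 hle)) hs.le]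

/-- A regular polygon orbit lying on an invariant curve maximises `∑ h` over regular polygons. -/
theorem regular_max (hh : IsTable h) {k : ℕ} (hk : 2 ≤ k) {η : ℝ} (hη : π / k < η)
    (hc : CurvesBelow h η) {ψ₀ : ℝ} (h0 : ∀ j : ℕ, deriv h (ψ₀ + 2 * π * j / k) = 0)
    (he : ∀ j : ℕ, h (ψ₀ + 2 * π * j / k) = h ψ₀) (ψ : ℝ) :
    ∑ j ∈ range k, h (ψ + 2 * π * j / k) ≤ k * h ψ₀ := by
  have hk0 : (0 : ℝ) < k := by exact_mod_cast (show 0 < k by omega)
  have hk2 : (2 : ℝ) ≤ k := by exact_mod_cast hk
  set α := π / (k : ℝ) with hα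
  have hα0 : 0 < α := div_pos pi_pos hk0
  have hα2 : α ≤ π / 2 := div_le_div_of_nonneg_left pi_pos.le two_pos hk2
  have hαk : 2 * π = 2 * α * k := by simp only [hα]; field_simp
  have hs : 0 < sin α := sin_pos_of_pos_of_lt_pi hα0 (by linarith [pi_pos])
  have hj : ∀ j : ℕ, 2 * π * j / k = 2 * α * j := fun j => by simp only [hα]; field_simp
  simp only [hj] at h0 he ⊢
  have hpos : 0 < h ψ₀ := height_pos hh hα0 hα2 (by simpa using h0 0) (by simpa using h0 1)
    (by simpa using he 1)
  obtain ⟨d, hd, hd0⟩ := hc ψ₀ α hα0 hη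
  -- the regular orbit stays on the curve
  have hdj : ∀ j : ℕ, d (ψ₀ + 2 * α * j) = α := by
    intro j
    induction j with
    | zero => simpa using hd0
    | succ j ih =>
      set p := ψ₀ + 2 * α * j
      have ep : ψ₀ + 2 * α * ((j + 1 : ℕ) : ℝ) = p + 2 * α := by simp only [p]; push_cast; ring
      obtain ⟨y, hy⟩ := hd.forward p
      obtain ⟨e1, e2⟩ := lineP_of_step hy
      simp only [ih] at e1 e2
      have m := hd.mem y
      have hreg : lineP h (p + α) p = lineP h (p + α) (p + 2 * α) := by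
        have a1 := h0 j
        have a2 := h0 (j + 1)
        have a3 := he j
        have a4 := he (j + 1)
        rw [ep] at a2 a4
        simp only [lineP, a1, a2, a3, a4, p, add_sub_cancel_left, zero_mul, add_zero,
          show ψ₀ + 2 * α * j + α - (ψ₀ + 2 * α * j + 2 * α) = -α by ring, cos_neg]
      have hy' : y = p + 2 * α := (lineP_strictAntiOn hh (p + α)).injOn
        ⟨by linarith [m.1], by linarith [m.2]⟩ ⟨by linarith, by linarith⟩ (e2.symm.trans hreg)
      rw [ep, ← hy']
      linarith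
  obtain ⟨u, c, I, hI, hle, heq⟩ := calibrated hh hd
  have tele : ∀ x : ℝ, ∑ j ∈ range k, (u (x + 2 * α * j + α) - u (x + 2 * α * j - α)) = I := by
    intro x
    have e : ∀ j : ℕ, u (x + 2 * α * j + α) - u (x + 2 * α * j - α) =
        (fun i : ℕ => u (x - α + 2 * α * i)) (j + 1) - (fun i : ℕ => u (x - α + 2 * α * i)) j := by
      intro j
      simp only []
      rw [show x + 2 * α * j + α = x - α + 2 * α * ((j + 1 : ℕ) : ℝ) by push_cast; ring,
        show x + 2 * α * j - α = x - α + 2 * α * (j : ℝ) by ring]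
    rw [Finset.sum_congr rfl fun j _ => e j, Finset.sum_range_sub (fun i : ℕ => u (x - α + 2 * α * i))]
    simp only [Nat.cast_zero, mul_zero, add_zero]
    rw [← hαk, hI]
    ring
  have hact : ∀ t : ℝ, act h (t - α) (t + α) = 2 * h t * sin α := fun t => by
    simp only [act, show (t - α + (t + α)) / 2 = t by ring, show (t + α - (t - α)) / 2 = α by ring]
  have h1 : ∑ j ∈ range k, 2 * h (ψ + 2 * α * j) * sin α ≤ I + k * c := by
    calc ∑ j ∈ range k, 2 * h (ψ + 2 * α * j) * sin α
        ≤ ∑ j ∈ range k, (u (ψ + 2 * α * j + α) - u (ψ + 2 * α * j - α) + c) := by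
          refine Finset.sum_le_sum fun j _ => ?_
          rw [← hact]
          exact hle _ _ (by linarith) (by linarith [pi_pos])
      _ = I + k * c := by rw [Finset.sum_add_distrib, tele, sum_const, card_range, nsmul_eq_mul]
  have h2 : ∑ j ∈ range k, 2 * h (ψ₀ + 2 * α * j) * sin α = I + k * c := by
    calc ∑ j ∈ range k, 2 * h (ψ₀ + 2 * α * j) * sin α
        = ∑ j ∈ range k, (u (ψ₀ + 2 * α * j + α) - u (ψ₀ + 2 * α * j - α) + c) := by
          refine Finset.sum_congr rfl fun j _ => ?_
          have := heq (ψ₀ + 2 * α * j)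
          rw [hdj j, hact] at this
          exact this
      _ = I + k * c := by rw [Finset.sum_add_distrib, tele, sum_const, card_range, nsmul_eq_mul]
  rw [← h2, ← Finset.sum_mul, ← Finset.sum_mul, ← Finset.mul_sum, ← Finset.mul_sum] at h1
  simp only [he, sum_const, card_range, nsmul_eq_mul] at h1
  exact le_of_mul_le_mul_left (le_of_mul_le_mul_right h1 hs) two_pos

/-- A table with symmetry of order `k` and invariant curves below an angle above `π / k` is a disc. -/
theorem symmetric_disc (hh : IsTable h) {k : ℕ} (hk : 2 ≤ k) {η : ℝ} (hη : π / k < η)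
    (hc : CurvesBelow h η) (hsym : Function.Periodic h (2 * π / k)) : ∀ ψ, h ψ = h 0 := by
  have hk0 : (0 : ℝ) < k := by exact_mod_cast (show 0 < k by omega)
  have hT : (0 : ℝ) < 2 * π := by positivity
  have hper : ∀ (ψ : ℝ) (j : ℕ), h (ψ + 2 * π * j / k) = h ψ := fun ψ j => by
    rw [show 2 * π * j / k = (j : ℝ) * (2 * π / k) by ring]
    exact hsym.nat_mul j ψ
  have hcomp : IsCompact (Set.range h) :=
    hh.periodic.image_Icc hT 0 ▸ isCompact_Icc.image hh.smooth.continuous
  obtain ⟨m, ⟨ψ₁, rfl⟩, hmin⟩ := hcomp.exists_isLeast (range_nonempty h)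
  have hcrit : ∀ j : ℕ, deriv h (ψ₁ + 2 * π * j / k) = 0 := fun j =>
    IsLocalMin.deriv_eq_zero (Filter.Eventually.of_forall fun t => by
      rw [hper]; exact hmin (Set.mem_range_self t))
  have hle : ∀ ψ, h ψ ≤ h ψ₁ := fun ψ => by
    have := regular_max hh hk hη hc hcrit (hper ψ₁) ψ
    simp only [hper, sum_const, card_range, nsmul_eq_mul] at this
    exact le_of_mul_le_mul_left this hk0
  intro ψ
  rw [le_antisymm (hle ψ) (hmin (Set.mem_range_self ψ)),
    le_antisymm (hle 0) (hmin (Set.mem_range_self 0))]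

end

end Vale.Agent.P097
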